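import Vale.Agent.P235.K5.H750.Presc2
import Vale.Agent.P235.K5.H913.Collar
import Vale.Agent.P235.K5.H500.Piece
import Vale.Agent.P235.K5.H500.Short3
import Vale.Agent.P235.K5.SX.Defs
import Vale.Agent.P235.R2.H598.Clos

/-!
P235, line SX, row [S1] (helper696): every semimetric `ρ ≤ d` on at most three roots
extends to an `L₁` semimetric `F ≤ d` with the alternatives of `Tri3`.
-/

set_option autoImplicit false

namespace Vale.Agent.P235.K5.SX.H696

open SimpleGraph Vale.Agent.P235 Vale.Agent.P235.H134 Vale.Agent.P235.H56 Vale.Agent.P235.K5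
open Vale.Agent.P235.H341W (capG)
open Filter Topology

/-- a cluster point of `L₁` semimetrics -/
theorem exists_cluster {V : Type} [Finite V] {d : V → V → ℝ} {F : ℕ → V → V → ℝ}
    (hF : ∀ n, IsL1 (F n)) (hd : ∀ n x y, F n x y ≤ d x y) :
    ∃ (G : V → V → ℝ) (φ : ℕ → ℕ), IsL1 G ∧ StrictMono φ ∧
      Tendsto (fun n => F (φ n)) atTop (𝓝 G) := by
  classical
  have : Fintype V := Fintype.ofFinite V
  set M : ℝ := ∑ x, ∑ y, |d x y| with hM
  have hM0 : 0 ≤ M := Finset.sum_nonneg fun x _ => Finset.sum_nonneg fun y _ => abs_nonneg _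
  have hdM : ∀ x y, d x y ≤ M := by
    intro x y
    calc d x y ≤ |d x y| := le_abs_self _
      _ ≤ ∑ y, |d x y| := Finset.single_le_sum (f := fun y => |d x y|)
          (fun y _ => abs_nonneg _) (Finset.mem_univ y)
      _ ≤ M := Finset.single_le_sum (f := fun x => ∑ y, |d x y|)
          (fun x _ => Finset.sum_nonneg fun y _ => abs_nonneg _) (Finset.mem_univ x)
  have hw := fun n => R2.H598.exists_weights (hF n) hM0 (fun x y => (hd n x y).trans (hdM x y))
  choose w hw0 hwM hwF using hw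
  have hcomp : IsCompact (Set.Icc (fun _ => 0 : (V → Bool) → ℝ) (fun _ => M)) := isCompact_Icc
  obtain ⟨v, hv, φ, hφ, hlim⟩ := hcomp.tendsto_subseq (x := w)
    (fun n => ⟨fun b => hw0 n b, fun b => hwM n b⟩)
  have hlimb : ∀ b, Tendsto (fun n => w (φ n) b) atTop (𝓝 (v b)) := by
    intro b
    exact (tendsto_pi_nhds.1 hlim) b
  refine ⟨fun x y => ∑ b, v b * (if b x = b y then 0 else 1), φ, ?_, hφ, ?_⟩
  · exact ⟨V → Bool, inferInstance, v, fun b => b, fun b => hv.1 b, fun x y => rfl⟩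
  · rw [tendsto_pi_nhds]
    intro x
    rw [tendsto_pi_nhds]
    intro y
    have h1 : (fun n => F (φ n) x y) =
        fun n => ∑ b, w (φ n) b * (if b x = b y then 0 else 1) := by
      funext n; exact hwF (φ n) x y
    rw [h1]
    exact tendsto_finsetSum _ fun b _ => (hlimb b).mul_const _

/-- the conclusion for a triple given as a map -/
def Good3 {V : Type} (k : ℝ) (d : V → V → ℝ) (R : Fin 3 → V) (rho : Fin 3 → Fin 3 → ℝ) : Prop :=
  ∃ F : V → V → ℝ, IsL1 F ∧ (∀ i j, F (R i) (R j) = rho i j) ∧ (∀ x y, F x y ≤ d x y) ∧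
    ∀ x y, k * d x y ≤ F x y ∨
      ∃ i j, F (R i) (R j) + k * (d x (R i) + d y (R j)) ≤ F x y

theorem good3_limit {V : Type} [Finite V] {k : ℝ} {d : V → V → ℝ} {R : Fin 3 → V}
    {rho : ℕ → Fin 3 → Fin 3 → ℝ} {rho' : Fin 3 → Fin 3 → ℝ} (h : ∀ n, Good3 k d R (rho n))
    (hlim : ∀ i j, Tendsto (fun n => rho n i j) atTop (𝓝 (rho' i j))) : Good3 k d R rho' := by
  choose F h1 h2 h3 h4 using h
  obtain ⟨G, φ, hG, hφ, hT⟩ := exists_cluster h1 h3
  have hT2 : ∀ x y, Tendsto (fun n => F (φ n) x y) atTop (𝓝 (G x y)) := by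
    intro x y
    have := (tendsto_pi_nhds.1 hT) x
    exact (tendsto_pi_nhds.1 this) y
  refine ⟨G, hG, ?_, ?_, ?_⟩
  · intro i j
    have e1 := hT2 (R i) (R j)
    have e2 : (fun n => F (φ n) (R i) (R j)) = fun n => rho (φ n) i j := by
      funext n; exact h2 (φ n) i j
    rw [e2] at e1
    exact tendsto_nhds_unique e1 ((hlim i j).comp hφ.tendsto_atTop)
  · intro x y
    exact le_of_tendsto' (hT2 x y) fun n => h3 (φ n) x y
  · intro x y
    have c0 : ∀ a b : V, Continuous fun H : V → V → ℝ => H a b := fun a b =>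
      (continuous_apply b).comp (continuous_apply a)
    have hcl : IsClosed ({H : V → V → ℝ | k * d x y ≤ H x y} ∪
        ⋃ i : Fin 3, ⋃ j : Fin 3,
          {H : V → V → ℝ | H (R i) (R j) + k * (d x (R i) + d y (R j)) ≤ H x y}) := by
      refine (isClosed_le continuous_const (c0 x y)).union ?_
      refine isClosed_iUnion_of_finite fun i => isClosed_iUnion_of_finite fun j => ?_
      exact isClosed_le ((c0 _ _).add continuous_const) (c0 x y)
    have hmem := hcl.mem_of_tendsto hT (Eventually.of_forall fun n => by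
      rcases h4 (φ n) x y with h | ⟨i, j, h⟩
      · exact Or.inl h
      · exact Or.inr (Set.mem_iUnion.2 ⟨i, Set.mem_iUnion.2 ⟨j, h⟩⟩))
    rcases hmem with h | h
    · exact Or.inl h
    · obtain ⟨i, hi⟩ := Set.mem_iUnion.1 h
      obtain ⟨j, hj⟩ := Set.mem_iUnion.1 hi
      exact Or.inr ⟨i, j, hj⟩

/-- the mixture of the exact embedding and of the collar -/
theorem good3_mix {V : Type} [Finite V] {κ : ℝ} (hκ : 0 < κ) (hκ1 : κ ≤ 1) {d d' : V → V → ℝ}
    (hd : IsMet d) {R : Fin 3 → V} {rho : Fin 3 → Fin 3 → ℝ} (h0 : ∀ p, rho p p = 0)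
    (hs : ∀ p q, rho p q = rho q p) (ht : ∀ p q r, rho p r ≤ rho p q + rho q r)
    (hle : ∀ p q, rho p q ≤ d (R p) (R q))
    (hcase : ∀ x y, d' x y = d x y ∨ ∃ i j, d' x y = d x (R i) + rho i j + d (R j) y)
    {F1 : V → V → ℝ} (l1 : IsL1 F1) (e1 : ∀ i j, F1 (R i) (R j) = rho i j)
    (low1 : ∀ x y, κ * d' x y ≤ F1 x y) (up1 : ∀ x y, F1 x y ≤ d x y) :
    Good3 (κ / 2048) d R rho := by
  obtain ⟨F2, l2, up2, e2, near2⟩ := H913.collar hd R rho h0 hs ht hle
  refine ⟨fun x y => 1 / 8 * F1 x y + 7 / 8 * F2 x y, ?_, ?_, ?_, ?_⟩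
  · exact (l1.smul (by norm_num)).add (l2.smul (by norm_num))
  · intro i j
    show 1 / 8 * F1 (R i) (R j) + 7 / 8 * F2 (R i) (R j) = rho i j
    rw [e1, e2]
    ring
  · intro x y
    show 1 / 8 * F1 x y + 7 / 8 * F2 x y ≤ d x y
    have h1 := up1 x y
    have h2 := up2 x y
    linarith
  · intro x y
    show κ / 2048 * d x y ≤ 1 / 8 * F1 x y + 7 / 8 * F2 x y ∨
      ∃ i j, 1 / 8 * F1 (R i) (R j) + 7 / 8 * F2 (R i) (R j) +
        κ / 2048 * (d x (R i) + d y (R j)) ≤ 1 / 8 * F1 x y + 7 / 8 * F2 x y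
    have hd0 := hd.nonneg x y
    by_cases hfar : 1 / 256 * d x y ≤ d' x y
    · left
      have n2 := l2.nonneg x y
      have h1 := low1 x y
      have h2 : κ * (1 / 256 * d x y) ≤ κ * d' x y := mul_le_mul_of_nonneg_left hfar hκ.le
      linarith
    · right
      have hlt := not_le.1 hfar
      have hex : ∃ i j, d x (R i) + rho i j + d (R j) y < 1 / 256 * d x y := by
        rcases hcase x y with h | ⟨i, j, h⟩
        · exfalso
          rw [h] at hlt
          linarith
        · exact ⟨i, j, by rw [← h]; exact hlt⟩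
      obtain ⟨i, j, hij⟩ := hex
      have p1 := hd.nonneg x (R i)
      have p2 := hd.nonneg (R j) y
      have r0 : 0 ≤ rho i j := by rw [← e1 i j]; exact l1.nonneg _ _
      have s0 := hd.symm (R j) y
      obtain ⟨p, q, hpq⟩ := near2 x y i j (by linarith)
      refine ⟨p, q, ?_⟩
      rw [e1, e2]
      have t1 : F1 (R p) (R q) ≤ F1 (R p) x + F1 x (R q) := l1.tri _ _ _
      have t2 : F1 x (R q) ≤ F1 x y + F1 y (R q) := l1.tri _ _ _
      have u1 : F1 (R p) x ≤ d (R p) x := up1 _ _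
      have u2 : F1 y (R q) ≤ d y (R q) := up1 _ _
      have s1 := hd.symm (R p) x
      have e := e1 p q
      have q1 := hd.nonneg x (R p)
      have q2 := hd.nonneg y (R q)
      have hc : κ / 2048 ≤ 3 / 4 := by linarith
      have q3 : κ / 2048 * (d x (R p) + d y (R q)) ≤ 3 / 4 * (d x (R p) + d y (R q)) :=
        mul_le_mul_of_nonneg_right hc (by linarith)
      linarith

theorem lim_mix (a b : ℝ) : Tendsto (fun n : ℕ => (1 - 1 / ((n : ℝ) + 1)) * a +
    1 / ((n : ℝ) + 1) * b) atTop (𝓝 a) := by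
  have h1 : Tendsto (fun n : ℕ => (1 - 1 / ((n : ℝ) + 1)) * a + 1 / ((n : ℝ) + 1) * b) atTop
      (𝓝 ((1 - 0) * a + 0 * b)) :=
    ((tendsto_const_nhds.sub tendsto_one_div_add_atTop_nhds_zero_nat).mul_const _).add
      (tendsto_one_div_add_atTop_nhds_zero_nat.mul_const _)
  simpa using h1

/-- three adjacent roots -/
theorem good3_tri {V : Type} [Finite V] (hS : Short3Stmt) {G : SimpleGraph V} {c : ℝ} (hc : 0 < c)
    (hc1 : c ≤ 1) (hE : EdgeExact G c) {d : V → V → ℝ} (hd : IsMet d) (hG : Gen G d)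
    {R : Fin 3 → V} (hR : TriAdj G R) (hno : ¬ IsMinor K33 (capG G (Set.range R)))
    {rho : Fin 3 → Fin 3 → ℝ} (h0 : ∀ p, rho p p = 0)
    (hs : ∀ p q, rho p q = rho q p) (ht : ∀ p q r, rho p r ≤ rho p q + rho q r)
    (hle : ∀ p q, rho p q ≤ d (R p) (R q)) : Good3 (c / 12288) d R rho := by
  have hinj : Function.Injective R := by
    intro i j hij
    by_contra hne
    exact (hR i j hne).ne hij
  have hnn : ∀ p q, 0 ≤ rho p q := by
    intro p q
    have h1 := ht p q p
    rw [h0, hs q p] at h1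
    linarith
  refine good3_limit (rho := fun n p q => (1 - 1 / ((n : ℝ) + 1)) * rho p q +
    1 / ((n : ℝ) + 1) * d (R p) (R q)) (fun n => ?_) (fun i j => lim_mix _ _)
  have hn : (0 : ℝ) < 1 / ((n : ℝ) + 1) := by positivity
  have hn1 : 1 / ((n : ℝ) + 1) ≤ 1 := by
    rw [div_le_one (by positivity)]
    have : (0 : ℝ) ≤ n := Nat.cast_nonneg n
    linarith
  set ε : ℝ := 1 / ((n : ℝ) + 1) with hε
  have m : IsMet fun p q : Fin 3 => (1 - ε) * rho p q + ε * d (R p) (R q) := by
    refine ⟨fun p => ?_, fun p q hpq => ?_, fun p q => ?_, fun p q r => ?_⟩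
    · show (1 - ε) * rho p p + ε * d (R p) (R p) = 0
      rw [h0, hd.self]; ring
    · show 0 < (1 - ε) * rho p q + ε * d (R p) (R q)
      have h1 : 0 ≤ (1 - ε) * rho p q := mul_nonneg (by linarith) (hnn p q)
      have h2 : 0 < ε * d (R p) (R q) := mul_pos hn (hd.pos _ _ fun h => hpq (hinj h))
      linarith
    · show (1 - ε) * rho p q + ε * d (R p) (R q) = (1 - ε) * rho q p + ε * d (R q) (R p)
      rw [hs, hd.symm]
    · show (1 - ε) * rho p r + ε * d (R p) (R r) ≤
        (1 - ε) * rho p q + ε * d (R p) (R q) + ((1 - ε) * rho q r + ε * d (R q) (R r))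
      have h1 := mul_le_mul_of_nonneg_left (ht p q r) (by linarith : (0 : ℝ) ≤ 1 - ε)
      have h2 := mul_le_mul_of_nonneg_left (hd.tri (R p) (R q) (R r)) hn.le
      linarith
  have hup : ∀ p q, (1 - ε) * rho p q + ε * d (R p) (R q) ≤ d (R p) (R q) := by
    intro p q
    have h1 := mul_le_mul_of_nonneg_left (hle p q) (by linarith : (0 : ℝ) ≤ 1 - ε)
    linarith
  obtain ⟨d', md, gd, hρ', hle', hcase⟩ := hS V G d hd hG R hR _ m hup
  obtain ⟨F1, l1, e1, low1, up1⟩ := H750.triIso' G c hc hE d' md gd R hR hno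
  have := good3_mix (κ := c / 6) (by positivity) (by linarith) hd m.self m.symm m.tri hup hcase l1
    (fun i j => (e1 i j).trans (hρ' i j)) low1 (fun x y => (up1 x y).trans (hle' x y))
  have e : c / 6 / 2048 = c / 12288 := by ring
  rw [e] at this
  exact this

/-- two adjacent roots -/
theorem good3_two {V : Type} [Finite V] {G : SimpleGraph V} {c : ℝ} (hc : 0 < c)
    (hc1 : c ≤ 1) (hE : EdgeExact G c) {d : V → V → ℝ} (hd : IsMet d) (hG : Gen G d)
    {s t : V} (hst : G.Adj s t) {a : ℝ} (ha : 0 ≤ a) (hle : a ≤ d s t) :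
    ∃ F : V → V → ℝ, IsL1 F ∧ F s t = a ∧ (∀ x y, F x y ≤ d x y) ∧
      ∀ x y, c / 2048 * d x y ≤ F x y ∨ ∃ r ∈ ({s, t} : Set V), ∃ r' ∈ ({s, t} : Set V),
        F r r' + c / 2048 * (d x r + d y r') ≤ F x y := by
  let R : Fin 3 → V := ![s, t, t]
  let rr : ℝ → Fin 3 → Fin 3 → ℝ := fun a i j => if (i = 0 ↔ j = 0) then 0 else a
  have key : Good3 (c / 2048) d R (rr a) := by
    have hmix : ∀ b : ℝ, 0 < b → b ≤ d s t → Good3 (c / 2048) d R (rr b) := by
      intro b hb hbd
      obtain ⟨F1, l1, e1, low1, up1⟩ := hE (short d s t b) (short_isMet hd hb)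
        (short_gen hd hG hst) s t hst
      rw [short_st hd hb hbd] at e1
      have e1' : F1 t s = b := by rw [l1.symm]; exact e1
      refine good3_mix (d' := short d s t b) hc hc1 hd ?_ ?_ ?_ ?_ ?_ l1 ?_ low1
        (fun x y => (up1 x y).trans (short_le _ _ _ _ _ _))
      · intro p
        show (if (p = 0 ↔ p = 0) then (0 : ℝ) else b) = 0
        rw [if_pos Iff.rfl]
      · intro p q
        show (if (p = 0 ↔ q = 0) then (0 : ℝ) else b) = if (q = 0 ↔ p = 0) then (0 : ℝ) else b
        simp only [iff_comm]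
      · intro p q r
        show (if (p = 0 ↔ r = 0) then (0 : ℝ) else b) ≤
          (if (p = 0 ↔ q = 0) then (0 : ℝ) else b) + if (q = 0 ↔ r = 0) then (0 : ℝ) else b
        by_cases h1 : (p = 0 ↔ q = 0) <;> by_cases h2 : (q = 0 ↔ r = 0)
        · rw [if_pos h1, if_pos h2, if_pos (h1.trans h2), add_zero]
        · rw [if_pos h1, if_neg h2]
          split_ifs <;> linarith
        · rw [if_neg h1, if_pos h2]
          split_ifs <;> linarith
        · rw [if_neg h1, if_neg h2]
          split_ifs <;> linarith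
      · intro p q
        show (if (p = 0 ↔ q = 0) then (0 : ℝ) else b) ≤ d (R p) (R q)
        have hts : b ≤ d t s := by rw [hd.symm]; exact hbd
        fin_cases p <;> fin_cases q <;>
          simp [R, hd.self, hbd, hts]
      · intro x y
        have hsh : short d s t b x y = min (d x y) (min (d x s + b + d t y) (d x t + b + d s y)) :=
          rfl
        rcases min_choice (d x y) (min (d x s + b + d t y) (d x t + b + d s y)) with h | h
        · left
          rw [hsh, h]
        · right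
          rcases min_choice (d x s + b + d t y) (d x t + b + d s y) with h' | h'
          · refine ⟨0, 1, ?_⟩
            rw [hsh, h, h']
            rfl
          · refine ⟨1, 0, ?_⟩
            rw [hsh, h, h']
            rfl
      · intro i j
        show F1 (R i) (R j) = if (i = 0 ↔ j = 0) then (0 : ℝ) else b
        have z1 := l1.self s
        have z2 := l1.self t
        fin_cases i <;> fin_cases j <;> simp [R, z1, z2, e1, e1']
    have hpos : 0 < d s t := hd.pos s t hst.ne
    refine good3_limit (rho := fun n => rr ((1 - 1 / ((n : ℝ) + 1)) * a +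
      1 / ((n : ℝ) + 1) * d s t)) (fun n => ?_) (fun i j => ?_)
    · have hn : (0 : ℝ) < 1 / ((n : ℝ) + 1) := by positivity
      have hn1 : 1 / ((n : ℝ) + 1) ≤ 1 := by
        rw [div_le_one (by positivity)]
        have : (0 : ℝ) ≤ n := Nat.cast_nonneg n
        linarith
      apply hmix
      · have h1 : 0 ≤ (1 - 1 / ((n : ℝ) + 1)) * a := mul_nonneg (by linarith) ha
        have h2 : 0 < 1 / ((n : ℝ) + 1) * d s t := mul_pos hn hpos
        linarith
      · have h1 := mul_le_mul_of_nonneg_left hle (by linarith : (0 : ℝ) ≤ 1 - 1 / ((n : ℝ) + 1))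
        linarith
    · show Tendsto (fun n : ℕ => if (i = 0 ↔ j = 0) then (0 : ℝ) else
        (1 - 1 / ((n : ℝ) + 1)) * a + 1 / ((n : ℝ) + 1) * d s t) atTop
        (𝓝 (if (i = 0 ↔ j = 0) then (0 : ℝ) else a))
      split_ifs
      · exact tendsto_const_nhds
      · exact lim_mix _ _
  obtain ⟨F, h1, h2, h3, h4⟩ := key
  have hR : ∀ i, R i ∈ ({s, t} : Set V) := by
    intro i
    fin_cases i
    · exact Or.inl rfl
    · exact Or.inr rfl
    · exact Or.inr rfl
  refine ⟨F, h1, ?_, h3, fun x y => ?_⟩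
  · exact h2 0 1
  · rcases h4 x y with h | ⟨i, j, h⟩
    · exact Or.inl h
    · exact Or.inr ⟨R i, hR i, R j, hR j, h⟩

theorem tri3_mono {V : Type} {k k' : ℝ} (hk : k' ≤ k) {far far' : Prop} (hfar : far → far')
    {d F : V → V → ℝ} (hd : IsMet d) {R : Set V} {x y : V} (h : Tri3 k far d F R x y) :
    Tri3 k' far' d F R x y := by
  rcases h with h | ⟨r, hr, s, hs, h⟩ | ⟨hf, h⟩
  · exact Or.inl ((mul_le_mul_of_nonneg_right hk (hd.nonneg x y)).trans h)
  · refine Or.inr (Or.inl ⟨r, hr, s, hs, le_trans ?_ h⟩)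
    have := mul_le_mul_of_nonneg_right hk (add_nonneg (hd.nonneg x r) (hd.nonneg y s))
    linarith
  · exact Or.inr (Or.inr ⟨hfar hf, fun r hr s hs =>
      (mul_le_mul_of_nonneg_right hk (hd.nonneg x y)).trans (h r hr s hs)⟩)

/-- **[S1]** -/
theorem s1_of (hS : Short3Stmt) {V : Type} [Finite V] {G : SimpleGraph V} {c : ℝ} (hc : 0 < c)
    (hc1 : c ≤ 1) (hE : EdgeExact G c) (hconn : G.Connected) {d : V → V → ℝ} (hd : IsMet d)
    (hG : Gen G d) {R : Set V} (hR : R.ncard ≤ 3) (hcl : ∀ u ∈ R, ∀ v ∈ R, u ≠ v → G.Adj u v)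
    (hno : R.ncard = 3 → ¬ IsMinor K33 (capG G R)) {ρ : V → V → ℝ} (hρ : IsL1 ρ)
    (hρd : ∀ u ∈ R, ∀ v ∈ R, ρ u v ≤ d u v) :
    ∃ F : V → V → ℝ, IsL1 F ∧ (∀ u ∈ R, ∀ v ∈ R, F u v = ρ u v) ∧ (∀ x y, F x y ≤ d x y) ∧
      ∀ x y, Tri3 (c / 12288) False d F R x y := by
  have hfin : R.Finite := Set.toFinite R
  have hcases : R.ncard ≤ 1 ∨ R.ncard = 2 ∨ R.ncard = 3 := by omega
  rcases hcases with h | h | h
  · have hsub : R.Subsingleton := by
      rcases Set.ncard_le_one hfin |>.1 h with h'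
      exact fun a ha b hb => h' a ha b hb
    obtain ⟨F, h1, h2, h3, h4⟩ := H500.presc_one hE hconn hd hG hsub (fun _ _ => 0) IsL1.zero
      (by
        intro u hu v hv
        rw [hsub hu hv, hd.self, mul_zero])
      (fun u hu v hv => hd.nonneg u v)
    refine ⟨F, h1, ?_, h4, fun x y => Or.inl ?_⟩
    · intro u hu v hv
      rw [hsub hu hv, h1.self, hρ.self]
    · have h5 : c / 12288 ≤ c := div_le_self hc.le (by norm_num)
      exact (mul_le_mul_of_nonneg_right h5 (hd.nonneg x y)).trans (h3 x y)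
  · obtain ⟨s, t, hne, rfl⟩ := Set.ncard_eq_two.1 h
    have hs : s ∈ ({s, t} : Set V) := Or.inl rfl
    have ht : t ∈ ({s, t} : Set V) := Or.inr rfl
    have hst : G.Adj s t := hcl s hs t ht hne
    obtain ⟨F, h1, h2, h3, h4⟩ := good3_two hc hc1 hE hd hG hst (hρ.nonneg s t) (hρd s hs t ht)
    refine ⟨F, h1, ?_, h3, fun x y => ?_⟩
    · intro u hu v hv
      rcases hu with rfl | rfl <;> rcases hv with rfl | rfl
      · rw [h1.self, hρ.self]
      · exact h2
      · rw [h1.symm, hρ.symm]; exact h2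
      · rw [h1.self, hρ.self]
    · have h5 : Tri3 (c / 2048) False d F {s, t} x y := by
        rcases h4 x y with h | h
        · exact Or.inl h
        · exact Or.inr (Or.inl h)
      exact tri3_mono (by linarith) id hd h5
  · obtain ⟨x, y, z, hxy, hxz, hyz, rfl⟩ := Set.ncard_eq_three.1 h
    let T : Fin 3 → V := ![x, y, z]
    have hRS : Set.range T = {x, y, z} := by
      ext v
      constructor
      · rintro ⟨i, rfl⟩
        fin_cases i
        · exact Or.inl rfl
        · exact Or.inr (Or.inl rfl)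
        · exact Or.inr (Or.inr rfl)
      · rintro (rfl | rfl | rfl)
        · exact ⟨0, rfl⟩
        · exact ⟨1, rfl⟩
        · exact ⟨2, rfl⟩
    have hmem : ∀ i, T i ∈ ({x, y, z} : Set V) := fun i => hRS ▸ Set.mem_range_self i
    have hinj : ∀ i j, i ≠ j → T i ≠ T j := by
      intro i j hij
      fin_cases i <;> fin_cases j
      · exact (hij rfl).elim
      · exact hxy
      · exact hxz
      · exact hxy.symm
      · exact (hij rfl).elim
      · exact hyz
      · exact hxz.symm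
      · exact hyz.symm
      · exact (hij rfl).elim
    have hadj : TriAdj G T := fun i j hij => hcl _ (hmem i) _ (hmem j) (hinj i j hij)
    have hno' : ¬ IsMinor K33 (capG G (Set.range T)) := by rw [hRS]; exact hno h
    obtain ⟨F, h1, h2, h3, h4⟩ := good3_tri hS hc hc1 hE hd hG hadj hno'
      (rho := fun i j => ρ (T i) (T j)) (fun p => hρ.self _) (fun p q => hρ.symm _ _)
      (fun p q r => hρ.tri _ _ _) (fun p q => hρd _ (hmem p) _ (hmem q))
    refine ⟨F, h1, ?_, h3, fun u v => ?_⟩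
    · intro u hu v hv
      rw [← hRS] at hu hv
      obtain ⟨i, rfl⟩ := hu
      obtain ⟨j, rfl⟩ := hv
      exact h2 i j
    · rcases h4 u v with h | ⟨i, j, h⟩
      · exact Or.inl h
      · exact Or.inr (Or.inl ⟨T i, hmem i, T j, hmem j, h⟩)

/-- **[S1]**, the literal -/
theorem s1Stmt : S1Stmt := by
  intro V _ G c hc hc1 hconn hE d hd hG R hR hcl hno ρ hρ hρd
  exact s1_of H500.short3 hc hc1 hE hconn hd hG hR hcl hno hρ hρd

end Vale.Agent.P235.K5.SX.H696
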